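import Vale.Agent.P217.Bdl.B3

/-!
# P217: Chai's invariant ideal conjecture, for all primes `p` and all heights `n ≥ 1`
-/

namespace Vale.Agent.Results.P217.Chai

open Vale.Agent.P217

/-- For every prime `p`, every `n ≥ 1` and every universal deformation `F` over
`E₀ = W(𝔽_{p^n})[[u_1, …, u_{n-1}]]` of the height `n` Honda formal group law, with coordinates
adapted to the height, the invariant prime ideals of `E₀` are exactly `I_0, …, I_n`, and the
invariant radical ideals are exactly `I_0, …, I_n, E₀`. -/
theorem result (p n : ℕ) [Fact p.Prime] (hn : 1 ≤ n) :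
    ∀ (Γ : FormalGroup (ZMod p)), IsHonda p n Γ → ∀ (F : FormalGroup (E0 p n)),
      IsUniversalDeformation p n Γ F → HeightAdapted p n F → ∀ J : Ideal (E0 p n),
        ((J.IsPrime ∧ IsInvariant p n F J) ↔ ∃ h ≤ n, J = heightIdeal p n h) ∧
        ((J.IsRadical ∧ IsInvariant p n F J) ↔ (J = ⊤ ∨ ∃ h ≤ n, J = heightIdeal p n h)) :=
  chai hn

end Vale.Agent.Results.P217.Chai
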