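import Vale.Agent.P217.Bdl.B3

/-!
# P217: Chai's invariant ideal conjecture, for all primes `p` and all heights `n ≥ 1`
-/

namespace Vale.Agent.Results.P217.ChaiFull

open Vale.Agent.P217.LT

/-- For every prime `p` and every `n ≥ 1`: the height `n` Honda formal group law `Γ` over `𝔽_p`
exists and is unique, `[p]_Γ(X) = X^(p^n)`; it has a universal deformation `F` over
`E₀ = W(𝔽_{p^n})[[u_1, …, u_{n-1}]]` such that `I_h = (p, u_1, …, u_{h-1})` cuts out the locus of
height at least `h`; and for every such `F` the extended Morava stabilizer group acts on `E₀`, and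
the invariant prime ideals of `E₀` are exactly `I_0, …, I_n`, the invariant radical ideals are
exactly `I_0, …, I_n, E₀`. -/
theorem result (p n : ℕ) [Fact p.Prime] (hn : 1 ≤ n) :
    (∃! Γ, IsHonda p n Γ) ∧ ∀ Γ, IsHonda p n Γ →
      multSeries Γ p = PowerSeries.X ^ p ^ n ∧
      (∃ F, IsUniversal p n Γ F ∧ HeightAdapted p n F) ∧
      ∀ F, IsUniversal p n Γ F → HeightAdapted p n F →
        (∀ σ γ, IsIso (base p n Γ) (base p n Γ) γ →
          ∃ φ : E0 p n ≃+* E0 p n, ∀ ψ, Acts p n Γ F σ γ ψ ↔ ψ = φ) ∧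
        ∀ J : Ideal (E0 p n),
          ((J.IsPrime ∧ IsInvariant p n Γ F J) ↔ ∃ h ≤ n, J = heightIdeal p n h) ∧
          ((J.IsRadical ∧ IsInvariant p n Γ F J) ↔ (J = ⊤ ∨ ∃ h ≤ n, J = heightIdeal p n h)) :=
  Vale.Agent.P217.LTC.final p n hn

end Vale.Agent.Results.P217.ChaiFull
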